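import Vale.Agent.P040.H251.Class
import Vale.Agent.P040.H105.Dbl

/-!
# Removal of an empty finger (G3)

A piece `w` of a closed curve followed by the reversed parallel piece `w'`, such that corresponding
points are neighbours with equal labels, can be removed from the tip to the hub: the curve stays a
curve with the same phase and the selector has the same value.
-/

set_option autoImplicit false

namespace P040H251

open Vale.Agent.P040.H906

section
variable {α : Type*} [LinearOrder α] [Inhabited α]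

/-- deletion of a pair of consecutive entries of the list which are neighbours with equal labels -/
theorem del_pair (T : SelApi α) {D : Dat α} {s : Bool} {A B : List α} {a a' : α} {E : α → ℝ}
    (h : Crv D s (A ++ a :: a' :: B) E) (hlab : D.lab a = D.lab a')
    (hgap : ∀ z ∈ A ++ a :: a' :: B, ¬ (min a a' < z ∧ z < max a a'))
    (hne : 0 < (A ++ B).length) :
    Crv D s (A ++ B) E ∧ T.val s (A ++ B) E = T.val s (A ++ a :: a' :: B) E := by
  have hk1 : A.length + 1 < (A ++ a :: a' :: B).length := by simp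
  obtain ⟨b, hb⟩ := adj_page h.cl s hk1
  rw [g_a, g_b] at hb
  have haL : a ∈ A ++ a :: a' :: B := by simp
  have hb' : fO s (A ++ a :: a' :: B) b a' = a := by
    have := f_f h.cl s b haL
    rwa [hb] at this
  have haa : a ≠ a' := by
    have := f_ne h.cl s b haL
    rw [hb] at this
    exact this.symm
  have hlen : 2 < (A ++ a :: a' :: B).length := by
    simp only [List.length_append, List.length_cons] at hne ⊢
    omega
  obtain ⟨x, hx, hlt, hlabx, hleaf⟩ : ∃ x, (x = a ∨ x = a') ∧
      x < fO s (A ++ a :: a' :: B) b x ∧ D.lab (fO s (A ++ a :: a' :: B) b x) = D.lab x ∧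
      ∀ z ∈ A ++ a :: a' :: B, ¬ (x < z ∧ z < fO s (A ++ a :: a' :: B) b x) := by
    rcases lt_or_gt_of_ne haa with hh | hh
    · refine ⟨a, Or.inl rfl, ?_, ?_, ?_⟩
      · rw [hb]; exact hh
      · rw [hb]; exact hlab.symm
      · intro z hz
        have := hgap z hz
        rw [min_eq_left hh.le, max_eq_right hh.le] at this
        rw [hb]; exact this
    · refine ⟨a', Or.inr rfl, ?_, ?_, ?_⟩
      · rw [hb']; exact hh
      · rw [hb']; exact hlab
      · intro z hz
        have := hgap z hz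
        rw [min_eq_right hh.le, max_eq_left hh.le] at this
        rw [hb']; exact this
  obtain ⟨n1, n2, n3⟩ := crv_del h hx hb hlen hlt hlabx hleaf
  refine ⟨n1, ?_⟩
  have hcard : 2 < (cfg s (A ++ a :: a' :: B)).S.card := by rw [card_cfg h.cl]; exact hlen
  have hag := agree_del (s := s) (A := A) (B := B) (a := a) (a' := a') (p := b) (x := x)
    h.cl hx hb
  have e1 := T.leaf (cfg s (A ++ a :: a' :: B)) E D.M b x h.good h.valid hcard n2 n3
  have e2 := T.agree hag (Cfg.good_del h.good hcard n2) (Cfg.valid_del h.good hcard n2 h.valid n3)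
    n1.valid
  unfold SelApi.val
  rw [e2, e1]

/-- **G3**, removal of an empty finger. `v` is the list of pairs (out copy, back copy). -/
theorem del_finger (T : SelApi α) {D : Dat α} {s : Bool} {A B : List α} {E : α → ℝ}
    (hne : 0 < (A ++ B).length) (v : List (α × α))
    (hlab : ∀ r ∈ v, D.lab r.1 = D.lab r.2)
    (hgap : ∀ r ∈ v, ∀ z ∈ A ++ (v.map Prod.fst ++ (v.map Prod.snd).reverse) ++ B,
      ¬ (min r.1 r.2 < z ∧ z < max r.1 r.2))
    (h : Crv D s (A ++ (v.map Prod.fst ++ (v.map Prod.snd).reverse) ++ B) E) :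
    Crv D s (A ++ B) E ∧
      T.val s (A ++ B) E = T.val s (A ++ (v.map Prod.fst ++ (v.map Prod.snd).reverse) ++ B) E := by
  induction v using List.reverseRecOn with
  | nil => simpa using h
  | append_singleton v r ih =>
    have e : A ++ ((v ++ [r]).map Prod.fst ++ ((v ++ [r]).map Prod.snd).reverse) ++ B =
        (A ++ v.map Prod.fst) ++ r.1 :: r.2 :: ((v.map Prod.snd).reverse ++ B) := by
      simp
    have e' : A ++ (v.map Prod.fst ++ (v.map Prod.snd).reverse) ++ B =
        (A ++ v.map Prod.fst) ++ ((v.map Prod.snd).reverse ++ B) := by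
      simp
    rw [e] at h hgap ⊢
    have hne' : 0 < ((A ++ v.map Prod.fst) ++ ((v.map Prod.snd).reverse ++ B)).length := by
      simp only [List.length_append] at hne ⊢
      omega
    obtain ⟨h1, h2⟩ := del_pair T h (hlab r (by simp)) (hgap r (by simp)) hne'
    rw [← e'] at h1 h2
    obtain ⟨h3, h4⟩ := ih (fun r' hr' => hlab r' (List.mem_append_left _ hr'))
      (fun r' hr' z hz => hgap r' (List.mem_append_left _ hr') z (by
        rw [e'] at hz
        rcases List.mem_append.1 hz with hz | hz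
        · exact List.mem_append_left _ hz
        · exact List.mem_append_right _ (List.mem_cons_of_mem _ (List.mem_cons_of_mem _ hz)))) h1
    exact ⟨h3, h4.trans h2⟩

end

open Vale.Agent.P040.Pst

/-- **G3** for doubled sub-stars: the finger of the arm `q` is empty, if the two copies of every
point of `q` (also of the leaf) have the same label. -/
theorem dbl_finger {ι : Type*} (T : SelApi ℝ) {D : Dat ℝ} {s : Bool} {ε : ℝ}
    {S₁ S₂ : List (ι × List ℝ)} {q : ι × List ℝ} {E : ℝ → ℝ}
    (hε : Sepd ε (pts (S₁ ++ q :: S₂))) (h0 : 0 < ε)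
    (hlab : ∀ p ∈ q.2, D.lab (p - ε) = D.lab (p + ε))
    (hne : 0 < (dbl ε (S₁ ++ S₂)).length) (h : Crv D s (dbl ε (S₁ ++ q :: S₂)) E) :
    Crv D s (dbl ε (S₁ ++ S₂)) E ∧
      T.val s (dbl ε (S₁ ++ S₂)) E = T.val s (dbl ε (S₁ ++ q :: S₂)) E := by
  have key : ∀ (l : List ℝ) (σ : ℝ), σ = ε ∨ σ = -ε → ∃ v : List (ℝ × ℝ),
      v.map Prod.fst = sh (-σ) l ∧ v.map Prod.snd = sh σ l ∧
      ∀ r ∈ v, ∃ p ∈ l, (r.1 = p - ε ∧ r.2 = p + ε) ∨ (r.1 = p + ε ∧ r.2 = p - ε) := by
    intro l
    induction l with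
    | nil => intro σ _; exact ⟨[], rfl, rfl, by simp⟩
    | cons a t ih =>
      intro σ hσ
      obtain ⟨v, h1, h2, h3⟩ := ih (-σ) (by
        rcases hσ with rfl | rfl
        · exact Or.inr rfl
        · exact Or.inl (neg_neg _))
      refine ⟨(a - σ, a + σ) :: v, ?_, ?_, ?_⟩
      · rw [List.map_cons, h1, sh_cons, sub_eq_add_neg]
      · rw [List.map_cons, h2, sh_cons]
      · intro r hr
        rcases List.mem_cons.1 hr with rfl | hr
        · refine ⟨a, by simp, ?_⟩
          rcases hσ with rfl | rfl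
          · exact Or.inl ⟨rfl, rfl⟩
          · exact Or.inr ⟨by simp, by simp [sub_eq_add_neg]⟩
        · obtain ⟨p, hp, hh⟩ := h3 r hr
          exact ⟨p, List.mem_cons_of_mem _ hp, hh⟩
  obtain ⟨v, h1, h2, h3⟩ := key q.2 ε (Or.inl rfl)
  have e : dbl ε (S₁ ++ q :: S₂) =
      dbl ε S₁ ++ (v.map Prod.fst ++ (v.map Prod.snd).reverse) ++ dbl ε S₂ := by
    rw [dbl_append, dbl_cons, h1, h2]
    simp
  have e' : dbl ε (S₁ ++ S₂) = dbl ε S₁ ++ dbl ε S₂ := dbl_append ε S₁ S₂
  have hT : ∀ r ∈ S₁ ++ q :: S₂, r ∈ S₁ ++ q :: S₂ := fun r hr => hr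
  have hgap : ∀ r ∈ v, ∀ z ∈ dbl ε (S₁ ++ q :: S₂), ¬ (min r.1 r.2 < z ∧ z < max r.1 r.2) := by
    intro r hr z hz
    obtain ⟨p, hp, hh⟩ := h3 r hr
    have hp' : p ∈ pts (S₁ ++ q :: S₂) := List.mem_flatMap.2 ⟨q, by simp, hp⟩
    have hg := dbl_gap hε h0 hT hp' hz
    have hle : p - ε ≤ p + ε := by linarith
    rcases hh with ⟨g1, g2⟩ | ⟨g1, g2⟩
    · rw [g1, g2, min_eq_left hle, max_eq_right hle]; exact hg
    · rw [g1, g2, min_eq_right hle, max_eq_left hle]; exact hg
  have hlab' : ∀ r ∈ v, D.lab r.1 = D.lab r.2 := by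
    intro r hr
    obtain ⟨p, hp, hh⟩ := h3 r hr
    rcases hh with ⟨g1, g2⟩ | ⟨g1, g2⟩
    · rw [g1, g2]; exact hlab p hp
    · rw [g1, g2]; exact (hlab p hp).symm
  rw [e'] at hne ⊢
  rw [e] at h hgap ⊢
  exact del_finger T hne v hlab' hgap h

end P040H251
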