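import Vale.Agent.P040.H522.ORows
import Vale.Agent.P040.H242.OBnd

/-!
# P040, both parts odd: only the hexagon rule is left
-/

set_option autoImplicit false

namespace Vale.Agent.P040.H522

open P040H251 Vale.Agent.P040.H682 Vale.Agent.P040.H242O

/-- **`OddMachine` from the hexagon rule.** -/
theorem oddMachine_of_hex (H : ∀ (h : ℕ) (P : OData h), OTri.HexGeom P vminus) :
    Odd.OddMachine :=
  oddMachine_of_rows (σ := -1) (Or.inr rfl) fun h P =>
    ⟨oTwist P vminus, oStep P vminus, oBound P vminus (fun P' => oTwist P' vminus) (Or.inr rfl),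
      H h P⟩

end Vale.Agent.P040.H522
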