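import Vale.Agent.P040.H522.OTwistVal
import Vale.Agent.P040.H242.OInst

/-!
# P040, both parts odd: the rows (T) and (W1) of `H242/OInst.lean`
-/

set_option autoImplicit false

namespace Vale.Agent.P040.H522

open P040H251 Vale.Agent.P040.H682 Vale.Agent.P040.H242O

variable {h : ℕ}

/-- row (T) -/
theorem oTwist (P : OData h) (T : VApi ℝ) : OTwist P T := fun hz hv => valT_twist hz hv

/-- row (W1) -/
theorem oStep (P : OData h) (T : VApi ℝ) : OStep P T (-1) := fun hv => valT_step hv

end Vale.Agent.P040.H522
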