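import Vale.Agent.P040.H84.Ins
import Vale.Agent.P040.H84.Rot2
import Vale.Agent.P040.H610.Trans
import Vale.Agent.P040.H251.Plus2

/-!
# P040, both parts odd: full twist of a curve through the middle of a leaf

The leaf is cut into two halves at `z0 < z1`; the head `r` of the curve lies between them, the
next point `l` lies to the left of both.  The list operation of the leaf twist, its phases, and the
value `vt` of the selector of one colour.
-/

set_option autoImplicit false

namespace Vale.Agent.P040.H522

open P040H251 Vale.Agent.P040.H906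

variable {s : Bool} {L : List ℝ}

/-- good and valid configuration of a cyclic list -/
structure Vd (s : Bool) (L : List ℝ) (E : ℝ → ℝ) (M : ℝ) : Prop where
  cl : CL L
  good : (cfg s L).Good
  valid : (cfg s L).Valid E M

theorem Vd.of_crv {D : Dat ℝ} {E : ℝ → ℝ} (h : Crv D s L E) : Vd s L E D.M :=
  ⟨h.cl, h.good, h.valid⟩

/-- deletion of a pair of consecutive entries which is an empty bigon of mass zero -/
theorem Vd.del {A B : List ℝ} {a a' : ℝ} {E : ℝ → ℝ} {M : ℝ}
    (h : Vd s (A ++ a :: a' :: B) E M) {b : Bool} {x : ℝ}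
    (hb : fO s (A ++ a :: a' :: B) b a = a') (hx : x = a ∨ x = a')
    (hlt : x < fO s (A ++ a :: a' :: B) b x)
    (hgap : ∀ z ∈ A ++ a :: a' :: B, ¬ (x < z ∧ z < fO s (A ++ a :: a' :: B) b x))
    (h0 : M + sg b * (E (fO s (A ++ a :: a' :: B) b x) - E x) = 0)
    (hne : 0 < (A ++ B).length) :
    Vd s (A ++ B) E M ∧ ∀ T : VApi ℝ, T.val s (A ++ B) E = T.val s (A ++ a :: a' :: B) E := by
  have hag := agree_del h.cl hx hb
  have hcl : CL (A ++ B) := h.cl.del hne
  have hlen : 2 < (A ++ a :: a' :: B).length := by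
    simp only [List.length_append, List.length_cons] at hne ⊢
    omega
  have hcard : 2 < (cfg s (A ++ a :: a' :: B)).S.card := by rw [card_cfg h.cl]; exact hlen
  have hxL : x ∈ A ++ a :: a' :: B := by rcases hx with rfl | rfl <;> simp
  have hlf : (cfg s (A ++ a :: a' :: B)).Leaf b x := by
    refine ⟨List.mem_toFinset.2 hxL, ?_⟩
    intro z hz hc
    have hz' : z ∈ A ++ a :: a' :: B := List.mem_toFinset.1 hz
    rcases hc with hc | hc | hc
    · exact hgap z hz' hc
    · exact absurd hlt (not_lt.2 hc.2.le)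
    · exact absurd hlt (not_lt.2 hc.1.le)
  have hdl : M + (cfg s (A ++ a :: a' :: B)).dl E b x = 0 := h0
  have g1 := Cfg.good_del h.good hcard hlf
  have v1 := Cfg.valid_del h.good hcard hlf h.valid hdl
  have g2 := hag.good g1
  have v2 : (cfg s (A ++ B)).Valid E M := by
    have hi : Iso id ((cfg s (A ++ a :: a' :: B)).del b x) (cfg s (A ++ B)) :=
      { map := fun y hy => by rw [hag.S]; exact hy
        surj := fun y hy => ⟨y, by rwa [← hag.S], rfl⟩
        inj := fun x _ y _ h => h
        comm := fun c y hy => (hag.f c y hy).symm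
        cyc := fun x _ y _ z _ => Iff.rfl }
    exact Iso.valid g1 hi (fun _ _ => rfl) v1
  refine ⟨⟨hcl, g2, v2⟩, fun T => ?_⟩
  have hc := colOK_upc (s := s) h.cl s
  have e1 := T.leaf (upc s (A ++ a :: a' :: B)) (cfg s (A ++ a :: a' :: B)) E M b x hc
    h.good h.valid hcard hlf hdl
  have e2 := T.congr (col' := upc s (A ++ B)) (E' := E) hag (hc.del h.good b hlf.1) g1 v1
    (fun y hy => upc_del h.cl.nodup (by
      rw [← hag.S] at hy
      exact List.mem_toFinset.1 hy)) (fun _ _ => rfl)
  unfold VApi.val
  rw [e2, e1]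

theorem Vd.val_eqOn (T : VApi ℝ) {E E' : ℝ → ℝ} {M : ℝ} (h : Vd s L E M)
    (hE : ∀ x ∈ L, E' x = E x) : T.val s L E' = T.val s L E :=
  T.congr ⟨rfl, fun _ _ _ => rfl⟩ (colOK_upc h.cl s) h.good h.valid (fun _ _ => rfl)
    (fun x hx => hE x (List.mem_toFinset.1 hx))

theorem Vd.val_mono_add (T : VApi ℝ) {E E' : ℝ → ℝ} {M M' : ℝ} (h : Vd s L E M)
    (h' : Vd s L E' M') (t : ℝ) (hE : ∀ x ∈ L, E x ≤ E' x + t) :
    T.val s L E ≤ T.val s L E' + t := by
  have e := T.add (upc s L) (cfg s L) E' M' t (colOK_upc h'.cl s) h'.good h'.valid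
  unfold VApi.val
  rw [← e]
  exact T.mono _ _ E (fun x => E' x + t) M M' (colOK_upc h.cl s) h.good h.valid
    (valid_add t h'.valid) (fun x hx => hE x (List.mem_toFinset.1 hx))

theorem iso_map {φ : ℝ → ℝ} {w : ℝ → Bool} (h : CL L) (hc : ToCrv.Cut L φ w) :
    Iso φ (cfg s L) (cfg s (L.map φ)) := by
  refine ⟨?_, ?_, ?_, ?_, ?_⟩
  · intro x hx
    simp only [cfg_S, List.mem_toFinset] at hx ⊢
    exact List.mem_map_of_mem hx
  · intro y hy
    simp only [cfg_S, List.mem_toFinset, List.mem_map] at hy ⊢
    exact hy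
  · intro x hx y hy
    simp only [cfg_S, List.mem_toFinset] at hx hy
    exact hc.inj x hx y hy
  · intro b x hx
    simp only [cfg_S, List.mem_toFinset] at hx
    exact (ToCrv.fO_map h hc.inj b hx).symm
  · intro x hx y hy z hz
    simp only [cfg_S, List.mem_toFinset] at hx hy hz
    exact (hc.cyc hx hy hz).symm

/-- transport along a map which preserves the cyclic order -/
theorem Vd.map {E E' : ℝ → ℝ} {M : ℝ} {φ : ℝ → ℝ} {w : ℝ → Bool}
    (h : Vd s L E M) (hg' : (cfg s (L.map φ)).Good) (hc : ToCrv.Cut L φ w)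
    (hE : ∀ x ∈ L, E' (φ x) = E x) :
    Vd s (L.map φ) E' M ∧ ∀ T : VApi ℝ, T.val s (L.map φ) E' = T.val s L E := by
  have hi := iso_map (s := s) h.cl hc
  have hcl := ToCrv.cl_map h.cl hc.inj
  have hE' : ∀ x ∈ (cfg s L).S, E' (φ x) = E x := fun x hx => hE x (List.mem_toFinset.1 hx)
  have hv := Iso.valid h.good hi hE' h.valid
  refine ⟨⟨hcl, hg', hv⟩, fun T => ?_⟩
  symm
  refine T.iso (upc s L) (upc s (L.map φ)) _ _ E E' M φ (colOK_upc h.cl s) (colOK_upc hcl s)
    h.good hg' h.valid hv hi hE' ?_
  intro x hx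
  simp only [cfg_S, List.mem_toFinset] at hx
  obtain ⟨i, hi', rfl⟩ := ex_idx hx
  rw [← ToCrv.g_map (φ := φ) hi', upc_g hcl.nodup (by rwa [List.length_map]), upc_g h.cl.nodup hi']

/-- changing the masses and the phases -/
theorem crv_change {D D' : Dat ℝ} {E η : ℝ → ℝ} (h : Crv D' s L E) (hM : D.M = D'.M)
    (hη : ∀ b, ∀ x ∈ L, sg b * (η (fO s L b x) - η x) =
      (D.C b (D.lab (fO s L b x)) - D'.C b (D'.lab (fO s L b x))) -
        (D.C b (D.lab x) - D'.C b (D'.lab x))) : Crv D s L (fun x => E x + η x) where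
  cl := h.cl
  pl := h.pl
  inc := by
    intro b x hx
    have h1 := h.inc b x hx
    have h2 := hη b x hx
    rw [hM]
    linarith

/-- the situation next to the cut leaf: `l` left of both halves, `r` between them -/
structure Near (D : Dat ℝ) (j : ℕ) (z0 z1 u l r : ℝ) (M : List ℝ) : Prop where
  lz : l < z0
  zr : z0 < r
  rz : r < z1
  zu : z1 < u
  labl : D.lab l = j
  lab1 : ∀ x, z0 < x → x < z1 → D.lab x = j + 1
  lab2 : ∀ x, z1 < x → x < u → D.lab x = j + 2
  emp : ∀ w ∈ M, ¬ (l < w ∧ w < u)

/-- labels with the second half of the leaf moved to the right of `u` -/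
noncomputable def delay (D : Dat ℝ) (j : ℕ) (u : ℝ) : Dat ℝ where
  lab := fun x => if x < u then min (D.lab x) (j + 1) else D.lab x
  mono := by
    intro x y hxy
    have h1 := D.mono hxy
    show (if x < u then min (D.lab x) (j + 1) else D.lab x) ≤
      (if y < u then min (D.lab y) (j + 1) else D.lab y)
    split_ifs with h2 h3 h3
    · omega
    · omega
    · exact absurd (lt_of_le_of_lt hxy h3) h2
    · exact h1
  C := D.C
  Cmono := D.Cmono
  M := D.M
  pos := D.pos
  tot := D.tot

section op

variable {D : Dat ℝ} {j : ℕ} {z0 z1 u l r n q r' : ℝ} {M : List ℝ} {E : ℝ → ℝ}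

/-- the phases after the twist -/
noncomputable def opE (D : Dat ℝ) (j : ℕ) (l r n q r' : ℝ) (E : ℝ → ℝ) : ℝ → ℝ := fun x =>
  if x = n then E l - (D.C false (j + 1) - D.C false j) + D.M -
      ((D.C true (j + 2) - D.C true (j + 1)) + (D.C false (j + 2) - D.C false (j + 1)))
  else if x = q then E l - (D.C false (j + 2) - D.C false j)
  else if x = r' then E r - (D.C false (j + 2) - D.C false (j + 1))
  else if x = l then E l -
      ((D.C true (j + 2) - D.C true (j + 1)) + (D.C false (j + 2) - D.C false (j + 1)))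
  else E x


theorem crv_congrE {E' : ℝ → ℝ} (h : Crv D s L E) (hE : ∀ x ∈ L, E' x = E x) : Crv D s L E' where
  cl := h.cl
  pl := h.pl
  inc := by
    intro b x hx
    rw [hE x hx, hE _ (f_mem h.cl s b hx)]
    exact h.inc b x hx

theorem Near.lt_or (hN : Near D j z0 z1 u l r M) {w : ℝ} (hw : w ∈ M) (hl : w ≠ l) :
    w < l ∨ u ≤ w := by
  have h1 := hN.emp w hw
  rcases lt_trichotomy w l with h2 | h2 | h2
  · exact Or.inl h2
  · exact absurd h2 hl
  · exact Or.inr (not_lt.1 fun h3 => h1 ⟨h2, h3⟩)

/-- **The list operation of the twist.** -/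
theorem op (hN : Near D j z0 z1 u l r M) (hC : Crv D true (r :: l :: M) E) (hM : M ≠ [])
    (hn : z0 < n) (hn' : n < z1) (hq : z1 < q) (hqr : q < r') (hru : r' < u) :
    Crv D true (r' :: l :: n :: q :: M) (opE D j l r n q r' E) := by
  have hnd := hC.cl.nodup
  rw [List.nodup_cons, List.nodup_cons] at hnd
  simp only [List.mem_cons, not_or] at hnd
  obtain ⟨⟨hrl, hrM⟩, hlM, hMnd⟩ := hnd
  have hlz := hN.lz
  have hzr := hN.zr
  have hrz := hN.rz
  have hlr : l < r := hlz.trans hzr
  have hwl : ∀ w ∈ M, w < l ∨ u ≤ w := fun w hw => hN.lt_or hw fun hh => hlM (hh ▸ hw)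
  have hr'M : r' ∉ M := fun hh => by
    rcases hwl _ hh with h1 | h1
    · linarith
    · linarith
  have hqM : q ∉ M := fun hh => by
    rcases hwl _ hh with h1 | h1
    · linarith
    · linarith
  have hnM : n ∉ M := fun hh => by
    rcases hwl _ hh with h1 | h1
    · linarith
    · linarith
  set D' := delay D j u with hD'
  have lab' : ∀ x, D'.lab x = if x < u then min (D.lab x) (j + 1) else D.lab x := fun _ => rfl
  have labn : D'.lab n = j + 1 := by
    rw [lab', if_pos (by linarith), hN.lab1 n hn hn']; simp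
  have labq : D'.lab q = j + 1 := by
    rw [lab', if_pos (by linarith), hN.lab2 q hq (by linarith)]; simp
  have labr' : D'.lab r' = j + 1 := by
    rw [lab', if_pos hru, hN.lab2 r' (by linarith) hru]; simp
  have labl : D'.lab l = j := by
    rw [lab', if_pos (by linarith), hN.labl]; simp
  have labM : ∀ w ∈ M, D'.lab w = D.lab w := by
    intro w hw
    rw [lab']
    rcases hwl w hw with h1 | h1
    · rw [if_pos (by linarith)]
      have h2 := D.mono h1.le
      rw [hN.labl] at h2
      omega
    · rw [if_neg (not_lt.2 h1)]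
  -- step 1: move `r`
  set φ : ℝ → ℝ := fun x => if x = r then r' else x with hφ
  have φr : φ r = r' := by rw [hφ]; simp
  have φne : ∀ x, x ≠ r → φ x = x := fun x hx => by rw [hφ]; simp [hx]
  have hmap : (r :: l :: M).map φ = r' :: l :: M := by
    rw [List.map_cons, List.map_cons, φr, φne l (Ne.symm hrl)]
    congr 2
    conv_rhs => rw [← List.map_id M]
    apply List.map_congr_left
    intro w hw
    exact φne w fun hh => hrM (hh ▸ hw)
  have hcut : ToCrv.Cut (r :: l :: M) φ (fun _ => false) := by
    refine ⟨?_, fun _ _ _ _ hh => by simp at hh⟩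
    intro x hx y hy
    simp only [true_and, Bool.false_eq_true, and_false, or_false]
    have key : ∀ w ∈ l :: M, w ≠ r ∧ (w < r ↔ w < r') ∧ (r < w ↔ r' < w) := by
      intro w hw
      rcases List.mem_cons.1 hw with rfl | hw
      · exact ⟨Ne.symm hrl, by constructor <;> intro <;> linarith,
          by constructor <;> intro <;> linarith⟩
      · refine ⟨fun hh => hrM (hh ▸ hw), ?_⟩
        rcases hwl w hw with h1 | h1
        · exact ⟨by constructor <;> intro <;> linarith, by constructor <;> intro <;> linarith⟩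
        · exact ⟨by constructor <;> intro <;> linarith, by constructor <;> intro <;> linarith⟩
    rcases List.mem_cons.1 hx with hx1 | hx1
    · rcases List.mem_cons.1 hy with hy1 | hy1
      · rw [hx1, hy1]; simp
      · obtain ⟨k1, k2, k3⟩ := key y hy1
        rw [hx1, φr, φne y k1]; exact k3.symm
    · rcases List.mem_cons.1 hy with hy1 | hy1
      · obtain ⟨k1, k2, k3⟩ := key x hx1
        rw [hy1, φr, φne x k1]; exact k2.symm
      · obtain ⟨k1, -, -⟩ := key x hx1
        obtain ⟨k2, -, -⟩ := key y hy1
        rw [φne x k1, φne y k2]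
  set E0 : ℝ → ℝ := fun x => if x = r' then E r else E x with hE0
  have hlr' : l ≠ r' := by intro hh; linarith
  have E0r : E0 r' = E r := by rw [hE0]; simp
  have E0ne : ∀ x, x ≠ r' → E0 x = E x := fun x hx => by rw [hE0]; simp [hx]
  have hE0φ : ∀ x ∈ r :: l :: M, E0 (φ x) = E x := by
    intro x hx
    rcases List.mem_cons.1 hx with rfl | hx
    · rw [φr, E0r]
    · rcases List.mem_cons.1 hx with rfl | hx
      · rw [φne _ (Ne.symm hrl), E0ne _ hlr']
      · rw [φne _ (fun hh => hrM (hh ▸ hx)), E0ne _ (fun hh => hr'M (hh ▸ hx))]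
  have h1 : Crv D' true (r' :: l :: M) E0 := by
    rw [← hmap]
    refine ToCrv.crv_map hC rfl hcut (fun _ => 0) ?_ hE0φ
    intro b x hx
    simp only [Bool.false_eq_true, if_false, add_zero]
    show D.C b (D'.lab (φ x)) = D.C b (D.lab x)
    congr 1
    rcases List.mem_cons.1 hx with rfl | hx
    · rw [φr, labr', hN.lab1 _ hzr hrz]
    · rcases List.mem_cons.1 hx with rfl | hx
      · rw [φne _ (Ne.symm hrl), labl, hN.labl]
      · rw [φne _ (fun hh => hrM (hh ▸ hx)), labM x hx]
  -- step 2: insertion
  obtain ⟨Q, B, rfl⟩ : ∃ Q B, M = Q :: B := by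
    cases M with
    | nil => exact absurd rfl hM
    | cons a M => exact ⟨a, M, rfl⟩
  have h1' : Crv D' true ([r'] ++ l :: Q :: B) E0 := h1
  have hnL : n ∉ [r'] ++ l :: Q :: B := by
    intro hh
    simp only [List.cons_append, List.nil_append] at hh
    rw [List.mem_cons, List.mem_cons] at hh
    rcases hh with hh | hh | hh
    · linarith
    · linarith
    · exact hnM hh
  have hqL : q ∉ [r'] ++ l :: Q :: B := by
    intro hh
    simp only [List.cons_append, List.nil_append] at hh
    rw [List.mem_cons, List.mem_cons] at hh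
    rcases hh with hh | hh | hh
    · linarith
    · linarith
    · exact hqM hh
  have hNx : Next ([r'] ++ l :: Q :: B) l n q := by
    refine Or.inr ⟨by linarith, by linarith, ?_⟩
    intro w hw hh
    simp only [List.cons_append, List.nil_append] at hw
    rw [List.mem_cons, List.mem_cons] at hw
    rcases hw with rfl | rfl | hw
    · linarith [hh.2]
    · exact lt_irrefl _ hh.1
    · rcases hwl w hw with h2 | h2
      · linarith [hh.1]
      · linarith [hh.2]
  have hne : n ≠ q := by intro hh; linarith
  have h2 := h1'.ins hnL hqL hNx (by rw [labn, labq])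
  obtain ⟨e1, e2, e3, e4, e5, e6, e7, e8, e9, e10⟩ := ins_f (s := true) h1'.cl hnL hqL hne
  have hpg : pgk true [r'].length = false := by simp [pgk]
  rw [hpg] at h2 e1 e2 e3 e4 e5 e6 e7 e8 e9 e10
  simp only [Bool.not_false] at e7 e8 e9
  have hL' : [r'] ++ l :: n :: q :: Q :: B = r' :: l :: n :: q :: Q :: B := rfl
  have hL0 : [r'] ++ l :: Q :: B = r' :: l :: Q :: B := rfl
  rw [hL'] at h2 e3 e4 e5 e6 e7 e8 e9 e10
  rw [hL0] at e1 e2 e9 e10
  have cl0 : CL (r' :: l :: Q :: B) := h1.cl
  have cl2 := h2.cl
  have ftr : fO true (r' :: l :: Q :: B) true r' = l := by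
    have := f_next cl0 true (k := 0) (by simp)
    simpa [pgk, g] using this
  have ftl : fO true (r' :: l :: Q :: B) true l = r' := by
    have := f_f cl0 true true (x := r') (by simp)
    rwa [ftr] at this
  set mU := D.C true (j + 2) - D.C true (j + 1) with hmU
  set mL := D.C false (j + 2) - D.C false (j + 1) with hmL
  set η : ℝ → ℝ := fun x => if x = n ∨ x = l then -(mU + mL) else if x = q ∨ x = r' then -mL else 0
    with hη
  have hln : l ≠ n := by intro hh; linarith
  have hlq : l ≠ q := by intro hh; linarith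
  have hnr' : n ≠ r' := by intro hh; linarith
  have hqr' : q ≠ r' := by intro hh; linarith
  have η1 : η n = -(mU + mL) := by simp [hη]
  have η2 : η l = -(mU + mL) := by simp [hη]
  have η3 : η q = -mL := by simp [hη, hne.symm, hlq.symm]
  have η4 : η r' = -mL := by simp [hη, hnr'.symm, hlr'.symm]
  have η5 : ∀ w ∈ Q :: B, η w = 0 := by
    intro w hw
    have k1 : w ≠ n := fun hh => hnM (hh ▸ hw)
    have k2 : w ≠ l := fun hh => hlM (hh ▸ hw)
    have k3 : w ≠ q := fun hh => hqM (hh ▸ hw)
    have k4 : w ≠ r' := fun hh => hr'M (hh ▸ hw)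
    simp [hη, k1, k2, k3, k4]
  have δn : ∀ b, D.C b (D.lab n) - D'.C b (D'.lab n) = 0 := by
    intro b; rw [labn, hN.lab1 n hn hn']; exact sub_self _
  have δl : ∀ b, D.C b (D.lab l) - D'.C b (D'.lab l) = 0 := by
    intro b; rw [labl, hN.labl]; exact sub_self _
  have δq : ∀ b, D.C b (D.lab q) - D'.C b (D'.lab q) = D.C b (j + 2) - D.C b (j + 1) := by
    intro b; rw [labq, hN.lab2 q hq (by linarith)]; rfl
  have δr : ∀ b, D.C b (D.lab r') - D'.C b (D'.lab r') = D.C b (j + 2) - D.C b (j + 1) := by
    intro b; rw [labr', hN.lab2 r' (by linarith) hru]; rfl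
  have δM : ∀ b, ∀ w ∈ Q :: B, D.C b (D.lab w) - D'.C b (D'.lab w) = 0 := by
    intro b w hw; rw [labM w hw]; exact sub_self _
  have hmem : ∀ x ∈ r' :: l :: n :: q :: Q :: B, x = n ∨ x = l ∨ x = q ∨ x = r' ∨ x ∈ Q :: B := by
    intro x hx
    simp only [List.mem_cons] at hx ⊢
    tauto
  have mem0 : ∀ w ∈ Q :: B, w ∈ r' :: l :: Q :: B := fun w hw =>
    List.mem_cons_of_mem _ (List.mem_cons_of_mem _ hw)
  have mem0' : ∀ w ∈ r' :: l :: Q :: B, w ≠ r' → w ≠ l → w ∈ Q :: B := by
    intro w hw k1 k2
    rcases List.mem_cons.1 hw with h | h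
    · exact absurd h k1
    · rcases List.mem_cons.1 h with h | h
      · exact absurd h k2
      · exact h
  have hQM : Q ∈ Q :: B := List.mem_cons_self
  have hQr' : Q ≠ r' := fun hh => hr'M (hh ▸ hQM)
  have h3 : Crv D true (r' :: l :: n :: q :: Q :: B)
      (fun x => insE D' false l n q E0 x + η x) := by
    refine crv_change h2 rfl ?_
    intro b x hx
    cases b
    · -- lower page
      simp only [sg, Bool.false_eq_true, if_false]
      rcases hmem x hx with rfl | rfl | rfl | rfl | hxM
      · rw [e4, δn, δl, η1, η2]; ring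
      · rw [e3, δn, δl, η1, η2]; ring
      · rw [e5, δq, δM _ Q hQM, η3, η5 Q hQM]; ring
      · have k1 : fO true (x :: l :: n :: q :: Q :: B) false x =
            fO true (x :: l :: Q :: B) false x := e10 x (by simp) hlr'.symm hQr'.symm
        have k2 : fO true (x :: l :: Q :: B) false x ∈ Q :: B := by
          apply mem0' _ (f_mem cl0 true false (by simp)) (f_ne cl0 true false (by simp))
          intro hh
          have := f_f cl0 true false (x := x) (by simp)
          rw [hh, e1] at this
          exact hQr' this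
        rw [k1, δr, δM _ _ k2, η4, η5 _ k2]; ring
      · by_cases hxQ : x = Q
        · rw [hxQ, e6, δq, δM _ Q hQM, η3, η5 Q hQM]; ring
        · have k0 : x ≠ l := fun hh => hlM (hh ▸ hxM)
          rw [e10 x (mem0 x hxM) k0 hxQ, δM _ x hxM, η5 x hxM]
          have k3 := f_mem cl0 true false (mem0 x hxM)
          have k4 : fO true (r' :: l :: Q :: B) false x ≠ l := by
            intro hh
            have := f_f cl0 true false (mem0 x hxM)
            rw [hh, e1] at this
            exact hxQ this.symm
          by_cases k5 : fO true (r' :: l :: Q :: B) false x = r'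
          · rw [k5, δr, η4]; ring
          · have k6 := mem0' _ k3 k5 k4
            rw [δM _ _ k6, η5 _ k6]; ring
    · -- upper page
      simp only [sg, if_true]
      rcases hmem x hx with rfl | rfl | rfl | rfl | hxM
      · rw [e7, δn, δq, η1, η3]; ring
      · rw [e9 x (by simp), ftl, δl, δr, η2, η4]; ring
      · rw [e8, δn, δq, η1, η3]; ring
      · rw [e9 x (by simp), ftr, δl, δr, η2, η4]; ring
      · rw [e9 x (mem0 x hxM), δM _ x hxM, η5 x hxM]
        have k3 := f_mem cl0 true true (mem0 x hxM)
        have k4 : fO true (r' :: l :: Q :: B) true x ≠ l := by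
          intro hh
          have := f_f cl0 true true (mem0 x hxM)
          rw [hh, ftl] at this
          exact hr'M (this ▸ hxM)
        have k5 : fO true (r' :: l :: Q :: B) true x ≠ r' := by
          intro hh
          have := f_f cl0 true true (mem0 x hxM)
          rw [hh, ftr] at this
          exact hlM (this ▸ hxM)
        have k6 := mem0' _ k3 k5 k4
        rw [δM _ _ k6, η5 _ k6]; ring
  refine crv_congrE h3 ?_
  intro x hx
  have hCC : ∀ b i, D'.C b i = D.C b i := fun _ _ => rfl
  have hMM : D'.M = D.M := rfl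
  have hlnlt : l < n := by linarith
  rcases hmem x hx with rfl | rfl | rfl | rfl | hxM
  · show opE D j l r x q r' E x = insE D' false l x q E0 x + η x
    rw [η1]
    unfold opE insE
    rw [if_pos rfl, if_pos rfl, if_pos hlnlt, labn, labl, hCC, hCC, hMM, E0ne l hlr']
    simp only [sg, Bool.false_eq_true, if_false]
    ring
  · rw [η2]
    unfold opE insE
    rw [if_neg hln, if_neg hlq, if_neg hlr', if_pos rfl, if_neg hln, if_neg hlq, E0ne _ hlr']
    ring
  · rw [η3]
    unfold opE insE
    rw [if_neg hne.symm, if_pos rfl, if_neg hne.symm, if_pos rfl, labn, labl, hCC, hCC,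
      E0ne l hlr']
    simp only [sg, Bool.false_eq_true, if_false]
    ring
  · rw [η4]
    unfold opE insE
    rw [if_neg hnr'.symm, if_neg hqr'.symm, if_pos rfl, if_neg hnr'.symm, if_neg hqr'.symm, E0r]
    ring
  · have k1 : x ≠ n := fun hh => hnM (hh ▸ hxM)
    have k2 : x ≠ l := fun hh => hlM (hh ▸ hxM)
    have k3 : x ≠ q := fun hh => hqM (hh ▸ hxM)
    have k4 : x ≠ r' := fun hh => hr'M (hh ▸ hxM)
    rw [η5 x hxM]
    unfold opE insE
    rw [if_neg k1, if_neg k3, if_neg k4, if_neg k2, if_neg k1, if_neg k3, E0ne x k4]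
    ring


/-- the values of the new phases -/
theorem opE_n : opE D j l r n q r' E n = E l - (D.C false (j + 1) - D.C false j) + D.M -
      ((D.C true (j + 2) - D.C true (j + 1)) + (D.C false (j + 2) - D.C false (j + 1))) := by
  unfold opE; rw [if_pos rfl]

theorem opE_q (h1 : q ≠ n) :
    opE D j l r n q r' E q = E l - (D.C false (j + 2) - D.C false j) := by
  unfold opE; rw [if_neg h1, if_pos rfl]

theorem opE_r (h1 : r' ≠ n) (h2 : r' ≠ q) :
    opE D j l r n q r' E r' = E r - (D.C false (j + 2) - D.C false (j + 1)) := by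
  unfold opE; rw [if_neg h1, if_neg h2, if_pos rfl]

theorem opE_l (h1 : l ≠ n) (h2 : l ≠ q) (h3 : l ≠ r') :
    opE D j l r n q r' E l = E l -
      ((D.C true (j + 2) - D.C true (j + 1)) + (D.C false (j + 2) - D.C false (j + 1))) := by
  unfold opE; rw [if_neg h1, if_neg h2, if_neg h3, if_pos rfl]

theorem opE_M {w : ℝ} (h1 : w ≠ n) (h2 : w ≠ q) (h3 : w ≠ r') (h4 : w ≠ l) :
    opE D j l r n q r' E w = E w := by
  unfold opE; rw [if_neg h1, if_neg h2, if_neg h3, if_neg h4]

/-- the phase of `l` relative to `r` -/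
theorem phase_l (hN : Near D j z0 z1 u l r M) (hC : Crv D true (r :: l :: M) E) :
    E l = E r - (D.C true (j + 1) - D.C true j) + D.M := by
  have f0 : fO true (r :: l :: M) true r = l := by
    have := f_next hC.cl true (k := 0) (by simp)
    simpa [pgk, g] using this
  have i0 := hC.inc true r (by simp)
  have hlr : l < r := hN.lz.trans hN.zr
  rw [f0, if_neg hlr.not_gt, hN.labl, hN.lab1 r hN.zr hN.rz] at i0
  simp only [sg, if_true] at i0
  linarith

/-- the order of all points -/
theorem ord (hN : Near D j z0 z1 u l r M) (hC : Crv D true (r :: l :: M) E)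
    {w : ℝ} (hw : w ∈ M) : (w < l ∨ u ≤ w) ∧ w ≠ l ∧ w ≠ r := by
  have hnd := hC.cl.nodup
  rw [List.nodup_cons, List.nodup_cons] at hnd
  simp only [List.mem_cons, not_or] at hnd
  obtain ⟨⟨hrl, hrM⟩, hlM, hMnd⟩ := hnd
  exact ⟨hN.lt_or hw fun hh => hlM (hh ▸ hw), fun hh => hlM (hh ▸ hw), fun hh => hrM (hh ▸ hw)⟩

/-- **The lower bigon is empty**: the value is that of the curve with the head moved to `r'` and
`l` moved to `q`. -/
theorem del_low (hN : Near D j z0 z1 u l r M) (hC : Crv D true (r :: l :: M) E) (hM : M ≠ [])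
    (hn : z0 < n) (hn' : n < z1) (hq : z1 < q) (hqr : q < r') (hru : r' < u)
    (hL : D.C false (j + 1) = D.C false j) :
    Vd true (r' :: q :: M) (opE D j l r n q r' E) D.M ∧
      ∀ T : VApi ℝ, T.val true (r' :: l :: n :: q :: M) (opE D j l r n q r' E) =
        T.val true (r' :: q :: M) (opE D j l r n q r' E) := by
  have hop := op hN hC hM hn hn' hq hqr hru
  have hlz := hN.lz
  have f1 : fO true (r' :: l :: n :: q :: M) false l = n := by
    have := f_next hop.cl true (k := 1) (by simp)
    simpa [pgk, g] using this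
  have hV : Vd true ([r'] ++ l :: n :: (q :: M)) (opE D j l r n q r' E) D.M := Vd.of_crv hop
  have f1' : fO true ([r'] ++ l :: n :: (q :: M)) false l = n := f1
  have hln : l < n := by linarith
  have h := hV.del (b := false) (x := l) f1' (Or.inl rfl) (by rw [f1']; exact hln) (by
    intro z hz hh
    rw [f1'] at hh
    simp only [List.cons_append, List.nil_append] at hz
    rw [List.mem_cons, List.mem_cons, List.mem_cons, List.mem_cons] at hz
    rcases hz with rfl | rfl | rfl | rfl | hz
    · linarith [hh.2]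
    · exact lt_irrefl _ hh.1
    · exact lt_irrefl _ hh.2
    · linarith [hh.2]
    · rcases (ord hN hC hz).1 with h1 | h1
      · linarith [hh.1]
      · linarith [hh.2]) (by
    rw [f1', opE_n, opE_l (by intro hh; linarith) (by intro hh; linarith)
      (by intro hh; linarith), hL]
    simp only [sg, Bool.false_eq_true, if_false]
    ring) (by simp)
  exact ⟨h.1, fun T => (h.2 T).symm⟩

/-- the map from the old curve to the curve with `r`, `l` moved to `r'`, `q` -/
theorem exists_map (hN : Near D j z0 z1 u l r M) (hC : Crv D true (r :: l :: M) E)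
    (hq : z1 < q) (hqr : q < r') (hru : r' < u) :
    ∃ φ : ℝ → ℝ, φ r = r' ∧ φ l = q ∧ (∀ w ∈ M, φ w = w) ∧
      (r :: l :: M).map φ = r' :: q :: M ∧ ToCrv.Cut (r :: l :: M) φ (fun _ => false) := by
  have hlz := hN.lz
  have hzr := hN.zr
  have hrz := hN.rz
  have hlr : l < r := hlz.trans hzr
  refine ⟨fun x => if x = r then r' else if x = l then q else x, by simp, by simp [hlr.ne], ?_, ?_,
    ?_, fun _ _ _ _ hh => by simp at hh⟩
  · intro w hw
    obtain ⟨-, h1, h2⟩ := ord hN hC hw
    simp [h1, h2]
  · rw [List.map_cons, List.map_cons]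
    simp only [if_true, hlr.ne, if_false]
    congr 2
    conv_rhs => rw [← List.map_id M]
    apply List.map_congr_left
    intro w hw
    obtain ⟨-, h1, h2⟩ := ord hN hC hw
    simp [h1, h2]
  · intro x hx y hy
    simp only [true_and, Bool.false_eq_true, and_false, or_false]
    have key : ∀ w ∈ M, w ≠ r ∧ w ≠ l ∧ ((w < l ∧ w < r ∧ w < q ∧ w < r') ∨
        (l < w ∧ r < w ∧ q < w ∧ r' < w)) := by
      intro w hw
      obtain ⟨h0, h1, h2⟩ := ord hN hC hw
      refine ⟨h2, h1, ?_⟩
      rcases h0 with h0 | h0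
      · exact Or.inl ⟨h0, by linarith, by linarith, by linarith⟩
      · exact Or.inr ⟨by linarith, by linarith, by linarith, by linarith⟩
    have hcase : ∀ x ∈ r :: l :: M, x = r ∨ x = l ∨ x ∈ M := by
      intro x hx; simpa [List.mem_cons] using hx
    rcases hcase x hx with h1 | h1 | h1 <;> rcases hcase y hy with h2 | h2 | h2
    · rw [h1, h2]; simp
    · rw [h1, h2, if_pos rfl, if_neg hlr.ne, if_pos rfl]
      constructor <;> intro <;> linarith
    · obtain ⟨k1, k2, k3⟩ := key y h2
      rw [h1, if_pos rfl, if_neg k1, if_neg k2]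
      rcases k3 with k3 | k3
      · exact ⟨fun hh => absurd hh (not_lt.2 k3.2.2.2.le), fun hh => absurd hh (not_lt.2 k3.2.1.le)⟩
      · exact ⟨fun _ => k3.2.1, fun _ => k3.2.2.2⟩
    · rw [h1, h2, if_pos rfl, if_neg hlr.ne, if_pos rfl]
      constructor <;> intro <;> linarith
    · rw [h1, h2]; simp
    · obtain ⟨k1, k2, k3⟩ := key y h2
      rw [h1, if_neg hlr.ne, if_pos rfl, if_neg k1, if_neg k2]
      rcases k3 with k3 | k3
      · exact ⟨fun hh => absurd hh (not_lt.2 k3.2.2.1.le), fun hh => absurd hh (not_lt.2 k3.1.le)⟩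
      · exact ⟨fun _ => k3.1, fun _ => k3.2.2.1⟩
    · obtain ⟨k1, k2, k3⟩ := key x h1
      rw [h2, if_pos rfl, if_neg k1, if_neg k2]
      rcases k3 with k3 | k3
      · exact ⟨fun _ => k3.2.1, fun _ => k3.2.2.2⟩
      · exact ⟨fun hh => absurd hh (not_lt.2 k3.2.2.2.le), fun hh => absurd hh (not_lt.2 k3.2.1.le)⟩
    · obtain ⟨k1, k2, k3⟩ := key x h1
      rw [h2, if_neg hlr.ne, if_pos rfl, if_neg k1, if_neg k2]
      rcases k3 with k3 | k3
      · exact ⟨fun _ => k3.1, fun _ => k3.2.2.1⟩
      · exact ⟨fun hh => absurd hh (not_lt.2 k3.2.2.1.le), fun hh => absurd hh (not_lt.2 k3.1.le)⟩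
    · obtain ⟨k1, k2, -⟩ := key x h1
      obtain ⟨k3, k4, -⟩ := key y h2
      rw [if_neg k1, if_neg k2, if_neg k3, if_neg k4]

/-- **Both halves above the line, or the first above and the second below.** The value changes by
at most the lower mass of the second half. -/
theorem val_low (T : VApi ℝ) (hN : Near D j z0 z1 u l r M) (hC : Crv D true (r :: l :: M) E)
    (hM : M ≠ []) (hn : z0 < n) (hn' : n < z1) (hq : z1 < q) (hqr : q < r') (hru : r' < u)
    (hL : D.C false (j + 1) = D.C false j) :
    T.val true (r' :: l :: n :: q :: M) (opE D j l r n q r' E) ≤ T.val true (r :: l :: M) E ∧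
    T.val true (r :: l :: M) E ≤ T.val true (r' :: l :: n :: q :: M) (opE D j l r n q r' E) +
      (D.C false (j + 2) - D.C false (j + 1)) := by
  obtain ⟨h1, h2⟩ := del_low hN hC hM hn hn' hq hqr hru hL
  obtain ⟨φ, φr, φl, φM, hmap, hcut⟩ := exists_map hN hC hq hqr hru
  have hlz := hN.lz
  have hlr : l < r := hN.lz.trans hN.zr
  have hrz := hN.rz
  set E2 : ℝ → ℝ := fun x => if x = r' then E r else if x = q then E l else E x with hE2
  have hE2φ : ∀ x ∈ r :: l :: M, E2 (φ x) = E x := by
    intro x hx
    rcases List.mem_cons.1 hx with hx1 | hx1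
    · rw [hx1, φr, hE2]; simp
    · rcases List.mem_cons.1 hx1 with hx2 | hx2
      · rw [hx2, φl, hE2]
        simp only [if_true, if_neg hqr.ne]
      · rw [φM x hx2, hE2]
        simp only
        obtain ⟨k0, k1, k2⟩ := ord hN hC hx2
        rw [if_neg, if_neg]
        · rintro rfl
          rcases k0 with k0 | k0 <;> linarith
        · rintro rfl
          rcases k0 with k0 | k0 <;> linarith
  have hV := Vd.of_crv hC
  obtain ⟨m1, m2⟩ := hV.map (E' := E2) (by rw [hmap]; exact h1.good) hcut hE2φ
  rw [hmap] at m1 m2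
  have hβ : 0 ≤ D.C false (j + 2) - D.C false (j + 1) :=
    sub_nonneg.2 (D.Cmono false (by omega))
  have hcmp : ∀ x ∈ r' :: q :: M, opE D j l r n q r' E x ≤ E2 x ∧
      E2 x ≤ opE D j l r n q r' E x + (D.C false (j + 2) - D.C false (j + 1)) := by
    intro x hx
    rcases List.mem_cons.1 hx with hx1 | hx1
    · rw [hx1, opE_r (by intro hh; linarith) (by intro hh; linarith), hE2]
      simp only [if_true]
      constructor <;> linarith
    · rcases List.mem_cons.1 hx1 with hx2 | hx2
      · rw [hx2, opE_q (by intro hh; linarith), hE2]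
        simp only [if_true, if_neg hqr.ne]
        constructor <;> linarith
      · obtain ⟨k0, k1, k2⟩ := ord hN hC hx2
        have a1 : x ≠ r' := by rintro rfl; rcases k0 with k0 | k0 <;> linarith
        have a2 : x ≠ q := by rintro rfl; rcases k0 with k0 | k0 <;> linarith
        have a3 : x ≠ n := by rintro rfl; rcases k0 with k0 | k0 <;> linarith
        rw [opE_M a3 a2 a1 k1, hE2]
        simp only
        rw [if_neg a1, if_neg a2]
        constructor <;> linarith
  rw [h2 T, ← m2 T]
  refine ⟨?_, m1.val_mono_add T h1 _ fun x hx => (hcmp x hx).2⟩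
  have := h1.val_mono_add T m1 0 fun x hx => by
    have := (hcmp x hx).1
    linarith
  linarith

/-- both halves above the line -/
theorem val_up (T : VApi ℝ) (hN : Near D j z0 z1 u l r M) (hC : Crv D true (r :: l :: M) E)
    (hM : M ≠ []) (hn : z0 < n) (hn' : n < z1) (hq : z1 < q) (hqr : q < r') (hru : r' < u)
    (hL : D.C false (j + 1) = D.C false j) (hL' : D.C false (j + 2) = D.C false (j + 1)) :
    T.val true (r' :: l :: n :: q :: M) (opE D j l r n q r' E) = T.val true (r :: l :: M) E := by
  obtain ⟨h1, h2⟩ := val_low T hN hC hM hn hn' hq hqr hru hL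
  rw [hL', sub_self, add_zero] at h2
  exact le_antisymm h1 h2

/-- both halves below the line -/
theorem val_down (T : VApi ℝ) (hN : Near D j z0 z1 u l r M) (hC : Crv D true (r :: l :: M) E)
    (hM : M ≠ []) (hn : z0 < n) (hn' : n < z1) (hq : z1 < q) (hqr : q < r') (hru : r' < u)
    (hU : D.C true (j + 1) = D.C true j) (hU' : D.C true (j + 2) = D.C true (j + 1)) :
    T.val true (r' :: l :: n :: q :: M) (opE D j l r n q r' E) = T.val true (r :: l :: M) E := by
  have hop := op hN hC hM hn hn' hq hqr hru
  have hlz := hN.lz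
  have hzr := hN.zr
  have hrz := hN.rz
  have hpos : 0 < M.length := List.length_pos_iff.2 hM
  -- the pair `n`, `q`
  have f2 : fO true ([r', l] ++ n :: q :: M) true n = q := by
    have := f_next hop.cl true (k := 2) (by simp)
    simpa [pgk, g] using this
  have hV : Vd true ([r', l] ++ n :: q :: M) (opE D j l r n q r' E) D.M := Vd.of_crv hop
  have hnq : n < q := by linarith
  obtain ⟨a1, a2⟩ := hV.del (b := true) (x := n) f2 (Or.inl rfl) (by rw [f2]; exact hnq) (by
    intro z hz hh
    rw [f2] at hh
    simp only [List.cons_append, List.nil_append] at hz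
    rw [List.mem_cons, List.mem_cons, List.mem_cons, List.mem_cons] at hz
    rcases hz with rfl | rfl | rfl | rfl | hz
    · linarith [hh.2]
    · linarith [hh.1]
    · exact lt_irrefl _ hh.1
    · exact lt_irrefl _ hh.2
    · rcases (ord hN hC hz).1 with h1 | h1
      · linarith [hh.1]
      · linarith [hh.2]) (by
    rw [f2, opE_n, opE_q (by intro hh; linarith), hU']
    simp only [sg, if_true]
    ring) (by simp)
  have a1' : Vd true ([] ++ r' :: l :: M) (opE D j l r n q r' E) D.M := a1
  have f3 : fO true ([] ++ r' :: l :: M) true r' = l := by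
    have := f_next a1'.cl true (k := 0) (by simp)
    simpa [pgk, g] using this
  have f3' : fO true ([] ++ r' :: l :: M) true l = r' := by
    have := f_f a1'.cl true true (x := r') (by simp)
    rwa [f3] at this
  have hlr' : l < r' := by linarith
  obtain ⟨b1, b2⟩ := a1'.del (b := true) (x := l) f3 (Or.inr rfl) (by rw [f3']; exact hlr') (by
    intro z hz hh
    rw [f3'] at hh
    simp only [List.nil_append] at hz
    rw [List.mem_cons, List.mem_cons] at hz
    rcases hz with rfl | rfl | hz
    · exact lt_irrefl _ hh.2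
    · exact lt_irrefl _ hh.1
    · rcases (ord hN hC hz).1 with h1 | h1
      · linarith [hh.1]
      · linarith [hh.2]) (by
    rw [f3', opE_r (by intro hh; linarith) (by intro hh; linarith),
      opE_l (by intro hh; linarith) (by intro hh; linarith) (by intro hh; linarith), hU',
      phase_l hN hC, hU]
    simp only [sg, if_true]
    ring) (by simpa using hpos)
  -- the old curve
  have hV0 : Vd true ([] ++ r :: l :: M) E D.M := Vd.of_crv hC
  have f4 : fO true ([] ++ r :: l :: M) true r = l := by
    have := f_next hC.cl true (k := 0) (by simp)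
    simpa [pgk, g] using this
  have f4' : fO true ([] ++ r :: l :: M) true l = r := by
    have := f_f hC.cl true true (x := r) (by simp)
    simp only [List.nil_append] at f4 ⊢
    rwa [f4] at this
  have hlr : l < r := by linarith
  obtain ⟨c1, c2⟩ := hV0.del (b := true) (x := l) f4 (Or.inr rfl) (by rw [f4']; exact hlr) (by
    intro z hz hh
    rw [f4'] at hh
    simp only [List.nil_append] at hz
    rw [List.mem_cons, List.mem_cons] at hz
    rcases hz with rfl | rfl | hz
    · exact lt_irrefl _ hh.2
    · exact lt_irrefl _ hh.1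
    · rcases (ord hN hC hz).1 with h1 | h1
      · linarith [hh.1]
      · linarith [hh.2]) (by
    rw [f4', phase_l hN hC, hU]
    simp only [sg, if_true]
    ring) (by simpa using hpos)
  have e1 := a2 T
  have e2 := b2 T
  have e3 := c2 T
  simp only [List.cons_append, List.nil_append] at e1 e2 e3 b1 c1
  rw [← e1, ← e2, ← e3]
  exact c1.val_eqOn T fun w hw => by
    obtain ⟨k0, k1, k2⟩ := ord hN hC hw
    exact opE_M (by rintro rfl; rcases k0 with k0 | k0 <;> linarith)
      (by rintro rfl; rcases k0 with k0 | k0 <;> linarith)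
      (by rintro rfl; rcases k0 with k0 | k0 <;> linarith) k1

/-- the new curve, read from the new head -/
theorem op_head (T : VApi ℝ) (hN : Near D j z0 z1 u l r M) (hC : Crv D true (r :: l :: M) E)
    (hM : M ≠ []) (hn : z0 < n) (hn' : n < z1) (hq : z1 < q) (hqr : q < r') (hru : r' < u) :
    Crv D true (n :: q :: (M ++ [r', l])) (opE D j l r n q r' E) ∧
      T.val true (n :: q :: (M ++ [r', l])) (opE D j l r n q r' E) =
        T.val true (r' :: l :: n :: q :: M) (opE D j l r n q r' E) := by
  have hop := op hN hC hM hn hn' hq hqr hru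
  have h := T.crv_rot_even hop (k := 2) (by decide)
  have e : (r' :: l :: n :: q :: M).rotate 2 = n :: q :: (M ++ [r', l]) := by
    rw [List.rotate_cons_succ, List.cons_append, List.rotate_cons_succ, List.rotate_zero]
    simp
  rw [e] at h
  exact h

/-- the phase of the new head relative to the old one; `m` is the mass of the leaf -/
theorem phase_n (hN : Near D j z0 z1 u l r M) (hC : Crv D true (r :: l :: M) E) :
    opE D j l r n q r' E n = E r + (2 * D.M -
      ((D.C true (j + 2) - D.C true j) + (D.C false (j + 2) - D.C false j))) := by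
  rw [opE_n, phase_l hN hC]
  ring

end op

end Vale.Agent.P040.H522
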