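import Vale.Agent.P040.H522.OTwist
import Vale.Agent.P040.H242.OValDef
import Vale.Agent.P040.H242.Dgs

/-!
# P040, both parts odd: the twist of the framed values (rows (T) and (W1))

`twist_gen`: every framed value `v` of the leaf `z` with the word `R` has a twisted value `v'` with
the word `(sl z)⁻¹ R (sl z)`; `v' = v - (h - 1/2)` for `z ≠ w`, and
`v' ≤ v - (h - 1/2) ≤ v' + 1/2` for `z = w`.
-/

set_option autoImplicit false

namespace Vale.Agent.P040.H522

open P040H251 Vale.Agent.P040.H906 Vale.Agent.P040.H84 Vale.Agent.P040.H682 Pst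

variable {h : ℕ} {P : OData h}

theorem gap_lt {z : Fin (2 * h + 1)} {x : ℝ} (hx : P.rk x = P.rk (P.pos z)) :
    P.G0.gap x = P.G0.lt z := by
  show P.rk x % (2 * h + 1) = P.rk (P.pos z)
  rw [hx, Nat.mod_eq_of_lt (P.rk_pos_lt z)]

theorem gap_rt {z : Fin (2 * h + 1)} {x : ℝ} (hx : P.rk x = P.rk (P.pos z) + 1) :
    P.G0.gap x = P.G0.rt z := by
  show P.rk x % (2 * h + 1) = (P.rk (P.pos z) + 1) % (2 * h + 1)
  rw [hx]

/-- the cut can be moved between two points -/
theorem crv_cut {z : Fin (2 * h + 1)} {t t' : ℝ} {s : Bool} {L : List ℝ} {E : ℝ → ℝ}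
    (hC : Crv (P.DC z t) s L E) (ht : ∀ x ∈ L, (t < x ↔ t' < x)) : Crv (P.DC z t') s L E where
  cl := hC.cl
  pl := hC.pl
  inc := by
    intro b x hx
    have h1 := hC.inc b x hx
    have e : ∀ y ∈ L, (P.DC z t').lab y = (P.DC z t).lab y := by
      intro y hy
      show P.rk y + (if t' < y then 1 else 0) = P.rk y + (if t < y then 1 else 0)
      simp only [ht y hy]
    rw [e x hx, e _ (f_mem hC.cl s b hx)]
    exact h1

/-- the curve with the leaf reached from below, and free room to the right of the cut -/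
structure Low (P : OData h) (T : VApi ℝ) (z : Fin (2 * h + 1)) (R : FreeGroup ℕ) (v : ℝ)
    (t u r l : ℝ) (M : List ℝ) (E : ℝ → ℝ) : Prop where
  crv : Crv (P.DC z t) true (r :: l :: M) E
  lz : l < P.pos z
  zr : P.pos z < r
  rt : r < t
  tu : t < u
  emp : ∀ w ∈ M, ¬ (l < w ∧ w ≤ u)
  rkl : P.rk l = P.rk (P.pos z)
  rku : P.rk u = P.rk (P.pos z) + 1
  word : Pst.wd P.G0 true (l :: M) = R * FreeGroup.of (P.G0.lt z)
  val : v = T.val true (r :: l :: M) E - E r

/-- **Half turn.** Every value has a curve with the leaf reached from below. -/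
theorem valT_low {T : VApi ℝ} {z : Fin (2 * h + 1)} {R : FreeGroup ℕ} {v : ℝ}
    (hv : P.ValT T z R v) : ∃ t u r l M E, Low P T z R v t u r l M E := by
  obtain ⟨u, r, l, L, E, hC, hF, hw, hv⟩ := hv
  obtain ⟨t, hrt, htu⟩ := exists_between hF.rt
  have hlr : l < r := hF.lz.trans hF.zr
  have hC1 : Crv (P.DC z t) true (r :: L) E := by
    refine crv_cut hC ?_
    intro x hx
    rcases List.mem_cons.1 hx with rfl | hx
    · exact ⟨fun hh => absurd hh (not_lt.2 hF.rt.le), fun hh => absurd hh (not_lt.2 hrt.le)⟩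
    · constructor
      · exact fun hh => htu.trans hh
      · intro hh
        by_contra hc
        exact hF.emp x hx ⟨hlr.trans (hrt.trans hh), not_lt.1 hc⟩
  rcases hF.fl with hfl | hfl
  · obtain ⟨M, rfl⟩ : ∃ M, L = l :: M := by
      cases L with
      | nil => simp at hfl
      | cons a M => simp at hfl; exact ⟨M, by rw [hfl]⟩
    exact ⟨t, u, r, l, M, E, hC1, hF.lz, hF.zr, hrt, htu, fun w hw' => hF.emp w (by simp [hw']),
      hF.rkl, hF.rkt, hw, hv⟩
  · obtain ⟨Q, B, rfl⟩ : ∃ Q B, L = Q :: B := by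
      cases L with
      | nil => simp at hfl
      | cons a M => exact ⟨a, M, rfl⟩
    obtain ⟨q, hq1, hq2⟩ := exists_between hF.lz
    obtain ⟨n, hqn, hn2⟩ := exists_between hq2
    have hrkq : P.rk q = P.rk (P.pos z) :=
      le_antisymm (P.rk_mono hq2.le) (by rw [← hF.rkl]; exact P.rk_mono hq1.le)
    have hrkn : P.rk n = P.rk (P.pos z) :=
      le_antisymm (P.rk_mono hn2.le) (by rw [← hF.rkl]; exact P.rk_mono (hq1.trans hqn).le)
    have hemp : ∀ w ∈ ([] : List ℝ) ++ r :: Q :: B, ¬ (l < w ∧ w < r) := by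
      intro w hw'
      rw [List.nil_append, List.mem_cons] at hw'
      rcases hw' with rfl | hw'
      · exact fun hh => lt_irrefl _ hh.2
      · exact fun hh => hF.emp w hw' ⟨hh.1, hh.2.le.trans hF.rt.le⟩
    have hnL : n ∉ ([] : List ℝ) ++ r :: Q :: B := fun hh =>
      hemp n hh ⟨hq1.trans hqn, hn2.trans hF.zr⟩
    have hqL : q ∉ ([] : List ℝ) ++ r :: Q :: B := fun hh =>
      hemp q hh ⟨hq1, hq2.trans hF.zr⟩
    have hN : Next (([] : List ℝ) ++ r :: Q :: B) r n q :=
      Or.inl ⟨hqn, hn2.trans hF.zr, fun w hw' hh => hemp w hw' ⟨hq1.trans hh.1, hh.2⟩⟩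
    have hlab : (P.DC z t).lab n = (P.DC z t).lab q := by
      show P.rk n + (if t < n then 1 else 0) = P.rk q + (if t < q then 1 else 0)
      rw [hrkn, hrkq, if_neg, if_neg]
      · linarith [hF.zr]
      · linarith [hF.zr]
    have hC' : Crv (P.DC z t) true (([] : List ℝ) ++ r :: Q :: B) E := hC1
    have h1 := hC'.ins hnL hqL hN hlab
    have h2 := T.ins_val hC' hnL hqL hN hlab
    refine ⟨t, u, r, n, q :: Q :: B,
      insE (P.DC z t) (pgk true ([] : List ℝ).length) r n q E, ?_⟩
    refine ⟨h1, hn2, hF.zr, hrt, htu, ?_, hrkn, hF.rkt, ?_, ?_⟩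
    · intro w hw'
      rw [List.mem_cons] at hw'
      rcases hw' with rfl | hw'
      · exact fun hh => lt_asymm hh.1 hqn
      · exact fun hh => hF.emp w hw' ⟨(hq1.trans hqn).trans hh.1, hh.2⟩
    · rw [← hw]
      show Pst.cl true (P.G0.gap n) * (Pst.cl (!true) (P.G0.gap q) *
        Pst.wd P.G0 (!!true) (Q :: B)) = Pst.wd P.G0 true (Q :: B)
      rw [gap_lt hrkn, gap_lt hrkq, ← mul_assoc]
      simp [Pst.cl]
    · rw [hv]
      have e1 : insE (P.DC z t) (pgk true ([] : List ℝ).length) r n q E r = E r :=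
        insE_eq _ hnL hqL (by simp)
      rw [e1]
      congr 1
      exact h2.symm

/-- the masses around the cut leaf -/
theorem cc_0 (z : Fin (2 * h + 1)) (b : Bool) :
    P.cc z b (P.rk (P.pos z)) = P.cum b (P.rk (P.pos z)) := by
  unfold OData.cc
  rw [if_pos le_rfl]

theorem cc_1 (z : Fin (2 * h + 1)) (b : Bool) :
    P.cc z b (P.rk (P.pos z) + 1) = P.cum b (P.rk (P.pos z)) + P.nin z b := by
  unfold OData.cc
  rw [if_neg (by omega), if_pos rfl]

theorem cc_2 (z : Fin (2 * h + 1)) (b : Bool) :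
    P.cc z b (P.rk (P.pos z) + 2) = P.cum b (P.rk (P.pos z)) + P.mu z b := by
  unfold OData.cc
  rw [if_neg (by omega), if_neg (by omega), show P.rk (P.pos z) + 2 - 1 = P.rk (P.pos z) + 1 by
    omega, P.cum_succ]

/-- **The twist.** -/
theorem twist_gen {T : VApi ℝ} {z : Fin (2 * h + 1)} {R : FreeGroup ℕ} {v : ℝ}
    (hv : P.ValT T z R v) :
    ∃ v', P.ValT T z ((sl P.G0 z)⁻¹ * R * sl P.G0 z) v' ∧
      v' ≤ v - ((h : ℝ) - 1 / 2) ∧ v - ((h : ℝ) - 1 / 2) ≤ v' + (if z = P.w then 1 / 2 else 0) := by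
  obtain ⟨t, u, r, l, M, E, hL⟩ := valT_low hv
  have hC := hL.crv
  have hlz := hL.lz
  have hzr := hL.zr
  have hrt := hL.rt
  have htu := hL.tu
  have hlr : l < r := hlz.trans hzr
  -- the labels near the leaf
  have hrk : ∀ x, P.pos z < x → x < u → P.rk x = P.rk (P.pos z) + 1 := by
    intro x h1 h2
    have h3 := (P.rk_lt_iff z x).2 h1
    have h4 := P.rk_mono h2.le
    have h5 := hL.rku
    omega
  have hN : Near (P.DC z t) (P.rk (P.pos z)) (P.pos z) t u l r M := by
    refine ⟨hlz, hzr, hrt, htu, ?_, ?_, ?_, ?_⟩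
    · show P.rk l + (if t < l then 1 else 0) = P.rk (P.pos z)
      rw [hL.rkl, if_neg (by linarith), add_zero]
    · intro x h1 h2
      show P.rk x + (if t < x then 1 else 0) = P.rk (P.pos z) + 1
      rw [hrk x h1 (by linarith), if_neg (by linarith), add_zero]
    · intro x h1 h2
      show P.rk x + (if t < x then 1 else 0) = P.rk (P.pos z) + 2
      rw [hrk x (by linarith) h2, if_pos h1]
    · exact fun w hw hh => hL.emp w hw ⟨hh.1, hh.2.le⟩
  -- the masses
  have hcM : (P.DC z t).M = ((h : ℝ) + 1 / 2) / 2 := rfl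
  have hc0 : ∀ b, (P.DC z t).C b (P.rk (P.pos z)) = P.cum b (P.rk (P.pos z)) :=
    fun b => cc_0 z b
  have hc1 : ∀ b, (P.DC z t).C b (P.rk (P.pos z) + 1) = P.cum b (P.rk (P.pos z)) + P.nin z b :=
    fun b => cc_1 z b
  have hc2 : ∀ b, (P.DC z t).C b (P.rk (P.pos z) + 2) = P.cum b (P.rk (P.pos z)) + P.mu z b :=
    fun b => cc_2 z b
  have hmu := P.mu_add z
  have hnin := P.nin_add z
  have hone : (1 : ℝ) ≤ h := by exact_mod_cast P.one_le
  -- the list has more than two points
  have hM : M ≠ [] := by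
    rintro rfl
    have f0 : fO true [r, l] true r = l := by
      have := f_next hC.cl true (k := 0) (by simp)
      simpa [pgk, g] using this
    have f1 : fO true [r, l] false r = l := by
      show lOf [r, l] r = l
      unfold lOf
      simp [lI, g]
    have i0 := hC.inc true r (by simp)
    have i1 := hC.inc false r (by simp)
    rw [f0, if_neg hlr.not_gt, hN.labl, hN.lab1 r hzr hrt, hc0, hc1, hcM] at i0
    rw [f1, if_neg hlr.not_gt, hN.labl, hN.lab1 r hzr hrt, hc0, hc1, hcM] at i1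
    simp only [Vale.Agent.P040.H906.sg, if_true, if_false, Bool.false_eq_true] at i0 i1
    linarith
  obtain ⟨n, hn, hn'⟩ := exists_between (hzr.trans hrt)
  obtain ⟨r', hr1, hru⟩ := exists_between htu
  obtain ⟨q, hq, hqr⟩ := exists_between hr1
  obtain ⟨h3, h4⟩ := op_head T hN hC hM hn hn' hq hqr hru
  have hph := phase_n (n := n) (q := q) (r' := r') hN hC
  rw [hc0, hc0, hc2, hc2, hcM] at hph
  refine ⟨T.val true (n :: q :: (M ++ [r', l])) (opE (P.DC z t) (P.rk (P.pos z)) l r n q r' E) -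
    opE (P.DC z t) (P.rk (P.pos z)) l r n q r' E n,
    ⟨t, n, l, q :: (M ++ [r', l]), _, h3, ⟨?_, hlz, hn, hn', ?_, hL.rkl, ?_⟩, ?_, rfl⟩, ?_⟩
  · right
    rw [show q :: (M ++ [r', l]) = (q :: M ++ [r']) ++ [l] by simp, List.getLast?_concat]
  · intro w hw'
    rw [List.mem_cons, List.mem_append] at hw'
    rcases hw' with rfl | hw' | hw'
    · exact fun hh => absurd hh.2 (not_le.2 hq)
    · exact fun hh => hL.emp w hw' ⟨hh.1, hh.2.trans htu.le⟩
    · simp only [List.mem_cons, List.not_mem_nil, or_false] at hw'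
      rcases hw' with rfl | rfl
      · exact fun hh => absurd hh.2 (not_le.2 hr1)
      · exact fun hh => lt_irrefl _ hh.1
  · exact hrk t (hzr.trans hrt) htu
  · -- the word
    have hev : M.length % 2 = 0 := by
      have := hC.cl.even
      simp only [List.length_cons] at this ⊢
      omega
    have hfl : Pst.fl M.length false = false := by
      obtain ⟨k, hk⟩ : Even M.length := Nat.even_iff.2 hev
      rw [hk, Pst.fl_add, Pst.fl_fl]
    have hw : Pst.cl true (P.G0.gap l) * Pst.wd P.G0 false M =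
        R * FreeGroup.of (P.G0.lt z) := hL.word
    rw [gap_lt hL.rkl] at hw
    have hwd : Pst.wd P.G0 false M = (FreeGroup.of (P.G0.lt z))⁻¹ * R *
        FreeGroup.of (P.G0.lt z) := by
      rw [mul_assoc, ← hw]
      simp [Pst.cl]
    show Pst.cl true (P.G0.gap q) * Pst.wd P.G0 (!true) (M ++ [r', l]) = _
    rw [show (!true) = false from rfl, Pst.wd_append, hfl, hwd,
      gap_rt (hrk q (by linarith) (by linarith))]
    show Pst.cl true (P.G0.rt z) * (_ * (Pst.cl false (P.G0.gap r') *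
      (Pst.cl (!false) (P.G0.gap l) * 1))) = _
    rw [gap_rt (hrk r' (by linarith) hru), gap_lt hL.rkl]
    simp only [Pst.cl, sl, if_true, if_false, Bool.false_eq_true, Bool.not_false]
    group
  · -- the value
    rw [h4, hph, hL.val]
    by_cases hzw : z = P.w
    · rw [if_pos hzw]
      have e1 : P.nin z false = 0 := by unfold OData.nin; rw [if_pos hzw]; simp
      have e2 : P.mu z false = 1 / 2 := by unfold OData.mu; rw [if_pos hzw]
      obtain ⟨g1, g2⟩ := val_low T hN hC hM hn hn' hq hqr hru (by rw [hc0, hc1, e1, add_zero])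
      rw [hc1, hc2, e1, e2] at g2
      constructor <;> linarith
    · rw [if_neg hzw]
      have g1 : T.val true (r' :: l :: n :: q :: M)
          (opE (P.DC z t) (P.rk (P.pos z)) l r n q r' E) = T.val true (r :: l :: M) E := by
        cases hpg : P.pg z
        · have e1 : P.nin z true = 0 := by unfold OData.nin; rw [if_neg hzw, hpg]; simp
          have e2 : P.mu z true = 0 := by unfold OData.mu; rw [if_neg hzw, hpg]; simp
          exact val_down T hN hC hM hn hn' hq hqr hru (by rw [hc0, hc1, e1, add_zero])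
            (by rw [hc2, hc1, e1, e2])
        · have e1 : P.nin z false = 0 := by unfold OData.nin; rw [if_neg hzw, hpg]; simp
          have e2 : P.mu z false = 0 := by unfold OData.mu; rw [if_neg hzw, hpg]; simp
          exact val_up T hN hC hM hn hn' hq hqr hru (by rw [hc0, hc1, e1, add_zero])
            (by rw [hc2, hc1, e1, e2])
      rw [g1]
      constructor <;> linarith

/-- **(T)** the twist around a leaf `z ≠ w` -/
theorem valT_twist {T : VApi ℝ} {z : Fin (2 * h + 1)} {R : FreeGroup ℕ} {v : ℝ} (hz : z ≠ P.w)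
    (hv : P.ValT T z R v) :
    P.ValT T z ((sl P.G0 z)⁻¹ * R * sl P.G0 z) (v + (-1) * ((h : ℝ) - 1 / 2)) := by
  obtain ⟨v', h1, h2, h3⟩ := twist_gen hv
  rw [if_neg hz] at h3
  have : v' = v + (-1) * ((h : ℝ) - 1 / 2) := by linarith
  rw [← this]
  exact h1

/-- **(W1)** the twist around the leaf `w`: the error has one sign (and is at most `1/2`) -/
theorem valT_step {T : VApi ℝ} {R : FreeGroup ℕ} {v : ℝ} (hv : P.ValT T P.w R v) :
    ∃ v', P.ValT T P.w ((sl P.G0 P.w)⁻¹ * R * sl P.G0 P.w) v' ∧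
      0 ≤ (-1 : ℝ) * (v' - (v + (-1) * ((h : ℝ) - 1 / 2))) := by
  obtain ⟨v', h1, h2, -⟩ := twist_gen hv
  exact ⟨v', h1, by linarith⟩

end Vale.Agent.P040.H522
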